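import Vale.Agent.P052.Reduce

namespace Vale.Agent.Results.P052.Nine

open Vale.Agent.P052 Matrix

/-- Borsuk's conjecture fails in every dimension `d ≥ 9`. -/
theorem result : ∀ d : ℕ, 9 ≤ d → ∃ Y : Set (EuclideanSpace ℝ (Fin d)),
    Bornology.IsBounded Y ∧ 0 < Metric.diam Y ∧
      ¬ ∃ P : Fin (d + 1) → Set (EuclideanSpace ℝ (Fin d)),
        (⋃ i, P i) = Y ∧ ∀ i, Metric.diam (P i) < Metric.diam Y := by
  classical
  intro d hd
  obtain ⟨k, rfl⟩ := Nat.exists_eq_add_of_le hd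
  obtain ⟨g, hg⟩ := exists_config k
  have hle : ∀ a b, dist (g a) (g b) ≤ √2 := fun a b =>
    Real.le_sqrt_of_sq_le (by rw [hg]; linarith [inner_amb_nonneg a b])
  have heq : ∀ a b, inner ℝ (amb a) (amb b) = 0 → dist (g a) (g b) = √2 := fun a b h => by
    rw [← Real.sqrt_sq (dist_nonneg (x := g a) (y := g b)), hg, h]; norm_num
  have hb : Bornology.IsBounded (Set.range g) := by
    rw [Metric.isBounded_range_iff]; exact ⟨_, hle⟩
  have hdiam : Metric.diam (Set.range g) = √2 := by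
    apply le_antisymm
    · refine Metric.diam_le_of_forall_dist_le (Real.sqrt_nonneg _) ?_
      rintro _ ⟨a, rfl⟩ _ ⟨b, rfl⟩
      exact hle a b
    · let a : Idx k := Sum.inl ⟨![1, 0, 0, 0], by simp [dotProduct, Fin.sum_univ_four]⟩
      let b : Idx k := Sum.inl ⟨![0, 1, 0, 0], by simp [dotProduct, Fin.sum_univ_four]⟩
      rw [← heq a b (by rw [inner_amb_ll]; simp [dotProduct, Fin.sum_univ_four])]
      exact Metric.dist_le_diam_of_mem hb ⟨a, rfl⟩ ⟨b, rfl⟩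
  refine ⟨Set.range g, hb, by rw [hdiam]; positivity, ?_⟩
  rintro ⟨P, hP, hlt⟩
  rw [hdiam] at hlt
  have hsub : ∀ i, P i ⊆ Set.range g := fun i => hP ▸ Set.subset_iUnion P i
  have hd' : ∀ i a b, g a ∈ P i → g b ∈ P i → dist (g a) (g b) ≤ Metric.diam (P i) :=
    fun i a b ha hb' => Metric.dist_le_diam_of_mem (hb.subset (hsub i)) ha hb'
  have hne : ∀ i a b, g a ∈ P i → g b ∈ P i → inner ℝ (amb a) (amb b) ≠ 0 := fun i a b ha hb' h =>
    absurd ((heq a b h).symm.trans_le (hd' i a b ha hb')) (not_le.2 (hlt i))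
  have hex : ∀ a, ∃ i, g a ∈ P i := fun a => Set.mem_iUnion.1 (hP ▸ ⟨a, rfl⟩)
  choose α hα using hex
  have hinj : Function.Injective fun j : Fin k => α (Sum.inr j) := by
    intro i j h
    by_contra hij
    have h' : α (Sum.inr i) = α (Sum.inr j) := h
    exact hne _ _ _ (hα (Sum.inr i)) (h' ▸ hα (Sum.inr j)) (by rw [inner_amb_rr, if_neg hij])
  set S : Finset (Fin (9 + k + 1)) := (Finset.univ.image fun j : Fin k => α (Sum.inr j))ᶜ with hS
  have hcard : S.card = 10 := by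
    rw [hS, Finset.card_compl, Finset.card_image_of_injective _ hinj]
    simp; omega
  let β : Fin 10 → Fin (9 + k + 1) := S.orderEmbOfFin hcard
  have hγ : ∀ i, 0 < 1 - Metric.diam (P i) ^ 2 / 2 := fun i => by
    have h1 := hlt i
    have h2 : Metric.diam (P i) ^ 2 < 2 := by
      rw [← Real.lt_sqrt Metric.diam_nonneg]; exact h1
    linarith
  refine no_cover (fun l => {x | ∃ h : x ⬝ᵥ x = 1, g (Sum.inl ⟨x, h⟩) ∈ P (β l)})
    (fun l x hx => hx.1) (fun x hx => ?_) (fun l => √(1 - Metric.diam (P (β l)) ^ 2 / 2))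
    (fun l => Real.sqrt_pos.2 (hγ _))
    (fun l => Real.sqrt_le_one.2 (by nlinarith [sq_nonneg (Metric.diam (P (β l)))])) ?_
  · have h1 : α (Sum.inl ⟨x, hx⟩) ∈ S := by
      rw [hS, Finset.mem_compl, Finset.mem_image]
      rintro ⟨j, -, hj⟩
      exact hne _ _ _ (hα (Sum.inl ⟨x, hx⟩)) (hj ▸ hα (Sum.inr j)) (inner_amb_lr _ _)
    have h2 : α (Sum.inl ⟨x, hx⟩) ∈ Set.range (S.orderEmbOfFin hcard) := by
      rw [Finset.range_orderEmbOfFin]; exact h1
    obtain ⟨l, hl⟩ := h2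
    refine ⟨l, hx, ?_⟩
    rw [show β l = α (Sum.inl ⟨x, hx⟩) from hl]
    exact hα _
  · rintro l x ⟨hx, hx'⟩ y ⟨hy, hy'⟩
    have h1 := hd' _ _ _ hx' hy'
    have h2 := hg (Sum.inl ⟨x, hx⟩) (Sum.inl ⟨y, hy⟩)
    rw [inner_amb_ll] at h2
    have h3 := pow_le_pow_left₀ dist_nonneg h1 2
    rw [← Real.sqrt_sq_eq_abs]
    exact Real.sqrt_le_sqrt (by simp only at h2; linarith)

end Vale.Agent.Results.P052.Nine
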